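import Mathlib

/-!
# A pair-moment inequality on the Johnson slice (P335, graph case, block (J))

`D` is a finite ground set, the slice is `D.powersetCard k` (the `k`-subsets of `D`), and
`sw a b` exchanges the roles of `a` and `b`.  For a mean-zero function `g` on the slice and two
points `a ≠ b` of `D`, let `y a b` be the sum of `g` over the sets separating `a` from `b`
(`sep D k a b`).  Main result (`johnson_pair_sum`):

`|D| * ∑_{a ≠ b} y a b ^ 2 / |sep D k a b| ≤ (|D| - 2) * ∑_{Johnson edges} (g S - g S') ^ 2`,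

with both sides written as sums over ordered pairs `(a, b)`.
-/

namespace Vale.Agent.Lib.P335.H59

open Finset

variable {V : Type*} [DecidableEq V]

/-- exchange the roles of `a` and `b` in the set `S` -/
def sw (a b : V) (S : Finset V) : Finset V := S.map (Equiv.swap a b).toEmbedding

/-- the `k`-subsets of `D` containing exactly one of `a`, `b` -/
def sep (D : Finset V) (k : ℕ) (a b : V) : Finset (Finset V) :=
  (D.powersetCard k).filter (fun S => ¬ (a ∈ S ↔ b ∈ S))

theorem mem_sw {a b x : V} {S : Finset V} : x ∈ sw a b S ↔ Equiv.swap a b x ∈ S := by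
  unfold sw
  rw [Finset.mem_map_equiv, Equiv.symm_swap]

theorem left_mem_sw {a b : V} {S : Finset V} : a ∈ sw a b S ↔ b ∈ S := by
  rw [mem_sw, Equiv.swap_apply_left]

theorem right_mem_sw {a b : V} {S : Finset V} : b ∈ sw a b S ↔ a ∈ S := by
  rw [mem_sw, Equiv.swap_apply_right]

theorem other_mem_sw {a b x : V} {S : Finset V} (hxa : x ≠ a) (hxb : x ≠ b) :
    x ∈ sw a b S ↔ x ∈ S := by
  rw [mem_sw, Equiv.swap_apply_of_ne_of_ne hxa hxb]

theorem sw_sw (a b : V) (S : Finset V) : sw a b (sw a b S) = S := by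
  ext x
  rw [mem_sw, mem_sw, Equiv.swap_apply_self]

theorem sw_self (a : V) (S : Finset V) : sw a a S = S := by
  ext x
  rw [mem_sw, Equiv.swap_self, Equiv.refl_apply]

theorem sw_comm (a b : V) (S : Finset V) : sw a b S = sw b a S := by
  unfold sw
  rw [Equiv.swap_comm]

theorem card_sw (a b : V) (S : Finset V) : (sw a b S).card = S.card := Finset.card_map _

theorem sw_eq_self {a b : V} {S : Finset V} (h : a ∈ S ↔ b ∈ S) : sw a b S = S := by
  ext x
  by_cases hxa : x = a
  · subst hxa
    rw [left_mem_sw]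
    exact h.symm
  · by_cases hxb : x = b
    · subst hxb
      rw [right_mem_sw]
      exact h
    · exact other_mem_sw hxa hxb

theorem sw_mem_powersetCard {D : Finset V} {k : ℕ} {a b : V} (ha : a ∈ D) (hb : b ∈ D)
    {S : Finset V} (hS : S ∈ D.powersetCard k) : sw a b S ∈ D.powersetCard k := by
  rw [Finset.mem_powersetCard] at hS ⊢
  refine ⟨?_, by rw [card_sw]; exact hS.2⟩
  intro x hx
  by_cases hxa : x = a
  · subst hxa; exact ha
  · by_cases hxb : x = b
    · subst hxb; exact hb
    · rw [other_mem_sw hxa hxb] at hx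
      exact hS.1 hx

/-- sums over the slice are invariant under `sw a b` -/
theorem sum_sw (D : Finset V) (k : ℕ) {a b : V} (ha : a ∈ D) (hb : b ∈ D) (φ : Finset V → ℝ) :
    ∑ S ∈ D.powersetCard k, φ (sw a b S) = ∑ S ∈ D.powersetCard k, φ S := by
  apply Finset.sum_nbij' (fun S => sw a b S) (fun S => sw a b S)
  · intro S hS; exact sw_mem_powersetCard ha hb hS
  · intro S hS; exact sw_mem_powersetCard ha hb hS
  · intro S _; exact sw_sw a b S
  · intro S _; exact sw_sw a b S
  · intro S _; rfl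

theorem sep_comm (D : Finset V) (k : ℕ) (a b : V) : sep D k a b = sep D k b a := by
  unfold sep
  apply Finset.filter_congr
  intro S _
  constructor
  · intro h h'; exact h h'.symm
  · intro h h'; exact h h'.symm

theorem sep_self (D : Finset V) (k : ℕ) (a : V) : sep D k a a = ∅ := by
  unfold sep
  apply Finset.filter_false_of_mem
  intro S _ h
  exact h Iff.rfl

/-- the sum of `g` over the separating sets, as a sum with an indicator -/
theorem sum_sep (D : Finset V) (k : ℕ) (a b : V) (g : Finset V → ℝ) :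
    ∑ S ∈ sep D k a b, g S
      = ∑ S ∈ D.powersetCard k, g S * (if (a ∈ S ↔ b ∈ S) then 0 else 1) := by
  unfold sep
  rw [Finset.sum_filter]
  apply Finset.sum_congr rfl
  intro S _
  by_cases h : (a ∈ S ↔ b ∈ S)
  · simp [h]
  · simp [h]

theorem card_sep (D : Finset V) (k : ℕ) (a b : V) :
    ((sep D k a b).card : ℝ)
      = ∑ S ∈ D.powersetCard k, (if (a ∈ S ↔ b ∈ S) then (0 : ℝ) else 1) := by
  have h := sum_sep D k a b (fun _ => (1 : ℝ))
  simp only [one_mul, Finset.sum_const, nsmul_eq_mul, mul_one] at h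
  exact h


/-- indicator (as a real number) that `S` contains exactly one of `a`, `b` -/
def ind (a b : V) (S : Finset V) : ℝ := if (a ∈ S ↔ b ∈ S) then 0 else 1

theorem ind_comm (a b : V) (S : Finset V) : ind a b S = ind b a S := by
  unfold ind
  by_cases ha : a ∈ S <;> by_cases hb : b ∈ S <;> simp [ha, hb]

theorem ind_self (a : V) (S : Finset V) : ind a a S = 0 := by
  unfold ind
  simp

theorem ind_sw_left {a c b : V} (hba : b ≠ a) (hbc : b ≠ c) (S : Finset V) :
    ind a b (sw a c S) = ind c b S := by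
  unfold ind
  simp only [left_mem_sw, other_mem_sw hba hbc]

theorem ind_sw_right {a c b : V} (hba : b ≠ a) (hbc : b ≠ c) (S : Finset V) :
    ind c b (sw a c S) = ind a b S := by
  unfold ind
  simp only [right_mem_sw, other_mem_sw hba hbc]

theorem ind_sub_sq (a b c : V) (S : Finset V) : (ind a b S - ind c b S) ^ 2 = ind a c S := by
  unfold ind
  by_cases ha : a ∈ S <;> by_cases hb : b ∈ S <;> by_cases hc : c ∈ S <;> simp [ha, hb, hc]

/-- the sum of `g` over the `k`-subsets of `D` separating `a` from `b` -/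
def ysum (D : Finset V) (k : ℕ) (g : Finset V → ℝ) (a b : V) : ℝ := ∑ S ∈ sep D k a b, g S

theorem ysum_eq (D : Finset V) (k : ℕ) (g : Finset V → ℝ) (a b : V) :
    ysum D k g a b = ∑ S ∈ D.powersetCard k, g S * ind a b S := by
  unfold ysum ind
  exact sum_sep D k a b g

theorem card_sep_eq (D : Finset V) (k : ℕ) (a b : V) :
    ((sep D k a b).card : ℝ) = ∑ S ∈ D.powersetCard k, ind a b S := by
  unfold ind
  exact card_sep D k a b

theorem ysum_comm (D : Finset V) (k : ℕ) (g : Finset V → ℝ) (a b : V) :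
    ysum D k g a b = ysum D k g b a := by
  unfold ysum
  rw [sep_comm]

theorem ysum_self (D : Finset V) (k : ℕ) (g : Finset V → ℝ) (a : V) : ysum D k g a a = 0 := by
  unfold ysum
  rw [sep_self, Finset.sum_empty]

/-- Cauchy–Schwarz step: moving the first point from `a` to `c` changes the separating sum by at
most the `(a, c)`-exchange energy. -/
theorem ysum_sub_sq_le (D : Finset V) (k : ℕ) (g : Finset V → ℝ) {a c b : V} (ha : a ∈ D)
    (hc : c ∈ D) (hba : b ≠ a) (hbc : b ≠ c) :
    (ysum D k g a b - ysum D k g c b) ^ 2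
      ≤ ((sep D k a c).card : ℝ)
          * ((1 / 4) * ∑ S ∈ D.powersetCard k, (g S - g (sw a c S)) ^ 2) := by
  have h1 : ysum D k g a b - ysum D k g c b
      = ∑ S ∈ D.powersetCard k, g S * (ind a b S - ind c b S) := by
    rw [ysum_eq, ysum_eq, ← Finset.sum_sub_distrib]
    apply Finset.sum_congr rfl
    intro S _
    ring
  have h2 : ∑ S ∈ D.powersetCard k, g S * (ind a b S - ind c b S)
      = ∑ S ∈ D.powersetCard k, g (sw a c S) * (ind c b S - ind a b S) := by
    rw [← sum_sw D k ha hc (fun S => g S * (ind a b S - ind c b S))]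
    apply Finset.sum_congr rfl
    intro S _
    rw [ind_sw_left hba hbc, ind_sw_right hba hbc]
  have h3 : 2 * (ysum D k g a b - ysum D k g c b)
      = ∑ S ∈ D.powersetCard k, (g S - g (sw a c S)) * (ind a b S - ind c b S) := by
    have h : ∑ S ∈ D.powersetCard k, (g S - g (sw a c S)) * (ind a b S - ind c b S)
        = ∑ S ∈ D.powersetCard k, g S * (ind a b S - ind c b S)
          + ∑ S ∈ D.powersetCard k, g (sw a c S) * (ind c b S - ind a b S) := by
      rw [← Finset.sum_add_distrib]
      apply Finset.sum_congr rfl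
      intro S _
      ring
    rw [h, ← h2, ← h1]
    ring
  have h4 := Finset.sum_mul_sq_le_sq_mul_sq (D.powersetCard k) (fun S => g S - g (sw a c S))
    (fun S => ind a b S - ind c b S)
  have h5 : ∑ S ∈ D.powersetCard k, (ind a b S - ind c b S) ^ 2 = ((sep D k a c).card : ℝ) := by
    rw [card_sep_eq]
    apply Finset.sum_congr rfl
    intro S _
    exact ind_sub_sq a b c S
  rw [← h3, h5] at h4
  nlinarith [h4]

/-- moving the first point does not change the number of separating sets -/
theorem card_sep_left (D : Finset V) (k : ℕ) {a c b : V} (ha : a ∈ D) (hc : c ∈ D)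
    (hba : b ≠ a) (hbc : b ≠ c) : (sep D k a b).card = (sep D k c b).card := by
  have h : ((sep D k a b).card : ℝ) = ((sep D k c b).card : ℝ) := by
    rw [card_sep_eq, card_sep_eq, ← sum_sw D k ha hc (fun S => ind a b S)]
    apply Finset.sum_congr rfl
    intro S _
    exact ind_sw_left hba hbc S
  exact_mod_cast h

/-- the number of `k`-subsets separating two distinct points of `D` does not depend on the
points -/
theorem sep_card_eq (D : Finset V) (k : ℕ) {a b a' b' : V} (ha : a ∈ D) (hb : b ∈ D)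
    (hab : a ≠ b) (ha' : a' ∈ D) (hb' : b' ∈ D) (hab' : a' ≠ b') :
    (sep D k a b).card = (sep D k a' b').card := by
  by_cases h : a' = b
  · subst h
    -- a' = b
    rw [card_sep_left D k ha hb' hab.symm hab', sep_comm D k b' a']
  · rw [card_sep_left D k ha ha' hab.symm (Ne.symm h), sep_comm D k a' b,
      card_sep_left D k hb hb' h hab', sep_comm D k b' a']


/-- every `k`-subset of `D` separates exactly `2 k (|D| - k)` ordered pairs of points of `D` -/
theorem sum_ind (D : Finset V) (k : ℕ) {S : Finset V} (hS : S ∈ D.powersetCard k) :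
    ∑ a ∈ D, ∑ b ∈ D, ind a b S = 2 * (k : ℝ) * ((D.card : ℝ) - k) := by
  rw [Finset.mem_powersetCard] at hS
  obtain ⟨hSD, hk⟩ := hS
  have h1 : ∑ b ∈ D, (if b ∈ S then (1 : ℝ) else 0) = k := by
    rw [Finset.sum_ite_mem, Finset.inter_eq_right.mpr hSD]
    simp [hk]
  have h2 : ∑ b ∈ D, (if b ∈ S then (0 : ℝ) else 1) = (D.card : ℝ) - k := by
    have h : ∀ b ∈ D, (if b ∈ S then (0 : ℝ) else 1) = 1 - (if b ∈ S then (1 : ℝ) else 0) := by
      intro b _
      split_ifs <;> ring
    rw [Finset.sum_congr rfl h, Finset.sum_sub_distrib, h1]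
    simp
  have h3 : ∀ a ∈ D, ∑ b ∈ D, ind a b S
      = (if a ∈ S then (1 : ℝ) else 0) * ((D.card : ℝ) - k)
        + (if a ∈ S then (0 : ℝ) else 1) * k := by
    intro a _
    by_cases ha : a ∈ S
    · rw [if_pos ha, if_pos ha, one_mul, zero_mul, add_zero, ← h2]
      apply Finset.sum_congr rfl
      intro b _
      unfold ind
      by_cases hb : b ∈ S <;> simp [ha, hb]
    · rw [if_neg ha, if_neg ha, one_mul, zero_mul, zero_add, ← h1]
      apply Finset.sum_congr rfl
      intro b _
      unfold ind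
      by_cases hb : b ∈ S <;> simp [ha, hb]
  rw [Finset.sum_congr rfl h3, Finset.sum_add_distrib, ← Finset.sum_mul, ← Finset.sum_mul, h1, h2]
  ring

/-- the separating sums of a mean-zero function add up to zero -/
theorem sum_ysum (D : Finset V) (k : ℕ) (g : Finset V → ℝ)
    (h0 : ∑ S ∈ D.powersetCard k, g S = 0) : ∑ a ∈ D, ∑ b ∈ D, ysum D k g a b = 0 := by
  have h1 : ∑ a ∈ D, ∑ b ∈ D, ysum D k g a b
      = ∑ S ∈ D.powersetCard k, g S * ∑ a ∈ D, ∑ b ∈ D, ind a b S := by
    have h : ∀ a ∈ D, ∑ b ∈ D, ysum D k g a b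
        = ∑ S ∈ D.powersetCard k, g S * ∑ b ∈ D, ind a b S := by
      intro a _
      rw [Finset.sum_congr rfl (fun b _ => ysum_eq D k g a b), Finset.sum_comm]
      apply Finset.sum_congr rfl
      intro S _
      rw [Finset.mul_sum]
    rw [Finset.sum_congr rfl h, Finset.sum_comm]
    apply Finset.sum_congr rfl
    intro S _
    rw [← Finset.mul_sum]
  rw [h1, Finset.sum_congr rfl (fun S hS => by rw [sum_ind D k hS]), ← Finset.sum_mul, h0,
    zero_mul]


/-- Poincaré inequality with constant `|D|` on the triangular graph (pairs of points of `D`,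
two pairs adjacent when they share a point), written with ordered sums. -/
theorem triangular_poincare (D : Finset V) (Y : V → V → ℝ)
    (hsym : ∀ a b, Y a b = Y b a) (hdiag : ∀ a, Y a a = 0)
    (h0 : ∑ a ∈ D, ∑ b ∈ D, Y a b = 0) :
    (D.card : ℝ) * ∑ a ∈ D, ∑ b ∈ D, Y a b ^ 2
      ≤ ∑ b ∈ D, ∑ a ∈ D, ∑ c ∈ D, (if a = b ∨ c = b then 0 else (Y a b - Y c b) ^ 2) := by
  set m : ℝ := (D.card : ℝ) with hm
  set r : V → ℝ := fun b => ∑ a ∈ D, Y a b with hr
  set nb : V → ℝ := fun b => ∑ a ∈ D, Y a b ^ 2 with hnb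
  have hN : ∑ a ∈ D, ∑ b ∈ D, Y a b ^ 2 = ∑ b ∈ D, nb b := Finset.sum_comm
  have hr' : ∀ a, ∑ b ∈ D, Y a b = r a := by
    intro a
    simp only [hr]
    exact Finset.sum_congr rfl (fun b _ => hsym a b)
  have hsumr : ∑ b ∈ D, r b = 0 := by
    simp only [hr]
    rw [Finset.sum_comm]
    exact h0
  -- Step 1: the right-hand side
  have step1 : ∀ b ∈ D, ∑ a ∈ D, ∑ c ∈ D, (if a = b ∨ c = b then 0 else (Y a b - Y c b) ^ 2)
      = 2 * (m - 1) * nb b - 2 * r b ^ 2 := by
    intro b hb
    have e1 : ∀ a ∈ D, ∀ c ∈ D, (if a = b ∨ c = b then 0 else (Y a b - Y c b) ^ 2)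
        = Y a b ^ 2 - 2 * (Y a b * Y c b) + Y c b ^ 2 - (if a = b then Y c b ^ 2 else 0)
          - (if c = b then Y a b ^ 2 else 0) := by
      intro a _ c _
      by_cases hab : a = b <;> by_cases hcb : c = b
      · subst hab; subst hcb; simp [hdiag]
      · subst hab; simp [hcb, hdiag]
      · subst hcb; simp [hab, hdiag]
      · simp [hab, hcb]; ring
    rw [Finset.sum_congr rfl (fun a ha => Finset.sum_congr rfl (fun c hc => e1 a ha c hc))]
    simp only [Finset.sum_sub_distrib, Finset.sum_add_distrib]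
    have p1 : ∑ a ∈ D, ∑ c ∈ D, Y a b ^ 2 = m * nb b := by
      simp only [Finset.sum_const, nsmul_eq_mul, hnb, hm]
      rw [← Finset.mul_sum]
    have p2 : ∑ a ∈ D, ∑ c ∈ D, 2 * (Y a b * Y c b) = 2 * r b ^ 2 := by
      have h : ∀ a ∈ D, ∑ c ∈ D, 2 * (Y a b * Y c b) = 2 * r b * Y a b := by
        intro a _
        rw [← Finset.mul_sum, ← Finset.mul_sum]
        ring
      rw [Finset.sum_congr rfl h, ← Finset.mul_sum]
      ring
    have p3 : ∑ a ∈ D, ∑ c ∈ D, Y c b ^ 2 = m * nb b := by
      simp only [Finset.sum_const, nsmul_eq_mul, hnb, hm]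
    have p4 : ∑ a ∈ D, ∑ c ∈ D, (if a = b then Y c b ^ 2 else 0) = nb b := by
      have h : ∀ a ∈ D, ∑ c ∈ D, (if a = b then Y c b ^ 2 else 0) = if a = b then nb b else 0 := by
        intro a _
        by_cases h : a = b <;> simp [h, hnb]
      rw [Finset.sum_congr rfl h, Finset.sum_ite_eq' D b]
      simp [hb]
    have p5 : ∑ a ∈ D, ∑ c ∈ D, (if c = b then Y a b ^ 2 else 0) = nb b := by
      have h : ∀ a ∈ D, ∑ c ∈ D, (if c = b then Y a b ^ 2 else 0) = Y a b ^ 2 := by
        intro a _
        rw [Finset.sum_ite_eq' D b]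
        simp [hb]
      rw [Finset.sum_congr rfl h]
    rw [p1, p2, p3, p4, p5]
    ring
  have hRHS : ∑ b ∈ D, ∑ a ∈ D, ∑ c ∈ D, (if a = b ∨ c = b then 0 else (Y a b - Y c b) ^ 2)
      = 2 * (m - 1) * (∑ b ∈ D, nb b) - 2 * ∑ b ∈ D, r b ^ 2 := by
    rw [Finset.sum_congr rfl step1, Finset.sum_sub_distrib, ← Finset.mul_sum, ← Finset.mul_sum]
  -- Step 3: the key sum of squares
  have step3 : 0 ≤ (m - 2) * ((m - 2) * (∑ b ∈ D, nb b) - 2 * ∑ b ∈ D, r b ^ 2) := by
    have e : ∑ a ∈ D, ∑ b ∈ D, (if a = b then 0 else ((m - 2) * Y a b - (r a + r b)) ^ 2)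
        = (m - 2) * ((m - 2) * (∑ b ∈ D, nb b) - 2 * ∑ b ∈ D, r b ^ 2) := by
      have e1 : ∀ a ∈ D, ∀ b ∈ D, (if a = b then 0 else ((m - 2) * Y a b - (r a + r b)) ^ 2)
          = (m - 2) ^ 2 * Y a b ^ 2 - 2 * (m - 2) * (Y a b * r a) - 2 * (m - 2) * (Y a b * r b)
            + (r a ^ 2 + 2 * (r a * r b) + r b ^ 2) - (if a = b then 4 * r b ^ 2 else 0) := by
        intro a _ b _
        by_cases h : a = b
        · subst h
          simp [hdiag]
          ring
        · simp [h]
          ring
      rw [Finset.sum_congr rfl (fun a ha => Finset.sum_congr rfl (fun b hb => e1 a ha b hb))]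
      simp only [Finset.sum_sub_distrib, Finset.sum_add_distrib]
      have q1 : ∑ a ∈ D, ∑ b ∈ D, (m - 2) ^ 2 * Y a b ^ 2 = (m - 2) ^ 2 * ∑ b ∈ D, nb b := by
        rw [← hN]
        simp only [Finset.mul_sum]
      have q2 : ∑ a ∈ D, ∑ b ∈ D, 2 * (m - 2) * (Y a b * r a)
          = 2 * (m - 2) * ∑ b ∈ D, r b ^ 2 := by
        have h : ∀ a ∈ D, ∑ b ∈ D, 2 * (m - 2) * (Y a b * r a) = 2 * (m - 2) * r a ^ 2 := by
          intro a _
          rw [← Finset.mul_sum, ← Finset.sum_mul, hr' a]
          ring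
        rw [Finset.sum_congr rfl h, ← Finset.mul_sum]
      have q3 : ∑ a ∈ D, ∑ b ∈ D, 2 * (m - 2) * (Y a b * r b)
          = 2 * (m - 2) * ∑ b ∈ D, r b ^ 2 := by
        rw [Finset.sum_comm]
        have h : ∀ b ∈ D, ∑ a ∈ D, 2 * (m - 2) * (Y a b * r b) = 2 * (m - 2) * r b ^ 2 := by
          intro b _
          rw [← Finset.mul_sum, ← Finset.sum_mul]
          ring
        rw [Finset.sum_congr rfl h, ← Finset.mul_sum]
      have q4a : ∑ a ∈ D, ∑ b ∈ D, r a ^ 2 = m * ∑ b ∈ D, r b ^ 2 := by
        simp only [Finset.sum_const, nsmul_eq_mul, hm]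
        rw [← Finset.mul_sum]
      have q4b : ∑ a ∈ D, ∑ b ∈ D, 2 * (r a * r b) = 0 := by
        have h : ∀ a ∈ D, ∑ b ∈ D, 2 * (r a * r b) = 0 := by
          intro a _
          rw [← Finset.mul_sum, ← Finset.mul_sum, hsumr]
          ring
        exact Finset.sum_eq_zero h
      have q4c : ∑ a ∈ D, ∑ b ∈ D, r b ^ 2 = m * ∑ b ∈ D, r b ^ 2 := by
        simp only [Finset.sum_const, nsmul_eq_mul, hm]
      have q5 : ∑ a ∈ D, ∑ b ∈ D, (if a = b then 4 * r b ^ 2 else 0) = 4 * ∑ b ∈ D, r b ^ 2 := by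
        have h : ∀ a ∈ D, ∑ b ∈ D, (if a = b then 4 * r b ^ 2 else 0) = 4 * r a ^ 2 := by
          intro a ha
          rw [Finset.sum_ite_eq D a]
          simp [ha]
        rw [Finset.sum_congr rfl h, ← Finset.mul_sum]
      rw [q1, q2, q3, q4a, q4b, q4c, q5]
      ring
    rw [← e]
    apply Finset.sum_nonneg
    intro a _
    apply Finset.sum_nonneg
    intro b _
    split_ifs
    · exact le_refl 0
    · exact sq_nonneg _
  rw [hRHS, hN]
  by_cases hcard : 3 ≤ D.card
  · have hm3 : (3 : ℝ) ≤ m := by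
      rw [hm]
      exact_mod_cast hcard
    have h2 : 0 ≤ (m - 2) * (∑ b ∈ D, nb b) - 2 * ∑ b ∈ D, r b ^ 2 := by
      by_contra hneg
      push Not at hneg
      nlinarith
    nlinarith
  · -- at most two points: everything vanishes
    push Not at hcard
    have hY : ∀ a ∈ D, ∀ b ∈ D, Y a b = 0 := by
      intro a ha b hb
      by_cases hab : a = b
      · subst hab
        exact hdiag a
      · have hsub : ({a, b} : Finset V) ⊆ D := by
          intro x hx
          rw [Finset.mem_insert, Finset.mem_singleton] at hx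
          rcases hx with rfl | rfl
          · exact ha
          · exact hb
        have hDe : ({a, b} : Finset V) = D := by
          apply Finset.eq_of_subset_of_card_le hsub
          rw [Finset.card_pair hab]
          omega
        rw [← hDe] at h0
        rw [Finset.sum_pair hab, Finset.sum_pair hab, Finset.sum_pair hab] at h0
        rw [hdiag a, hdiag b, hsym b a] at h0
        linarith
    have hnb0 : ∀ b ∈ D, nb b = 0 := by
      intro b hb
      simp only [hnb]
      apply Finset.sum_eq_zero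
      intro a ha
      rw [hY a ha b hb]
      ring
    have hr0 : ∀ b ∈ D, r b ^ 2 = 0 := by
      intro b hb
      have : r b = 0 := by
        simp only [hr]
        apply Finset.sum_eq_zero
        intro a ha
        exact hY a ha b hb
      rw [this]
      ring
    rw [Finset.sum_eq_zero hnb0, Finset.sum_eq_zero hr0]
    simp


/-- the exchange energy of the pair `(a, c)`: `‖(1 - sw a c) g / 2‖²` -/
noncomputable def pairEnergy (D : Finset V) (k : ℕ) (g : Finset V → ℝ) (a c : V) : ℝ :=
  (1 / 4) * ∑ S ∈ D.powersetCard k, (g S - g (sw a c S)) ^ 2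

theorem pairEnergy_nonneg (D : Finset V) (k : ℕ) (g : Finset V → ℝ) (a c : V) :
    0 ≤ pairEnergy D k g a c := by
  unfold pairEnergy
  apply mul_nonneg (by norm_num)
  exact Finset.sum_nonneg (fun S _ => sq_nonneg _)

theorem pairEnergy_self (D : Finset V) (k : ℕ) (g : Finset V → ℝ) (a : V) :
    pairEnergy D k g a a = 0 := by
  unfold pairEnergy
  have h : ∀ S ∈ D.powersetCard k, (g S - g (sw a a S)) ^ 2 = 0 := by
    intro S _
    rw [sw_self]
    ring
  rw [Finset.sum_eq_zero h, mul_zero]

theorem sum_pairEnergy (D : Finset V) (k : ℕ) (g : Finset V → ℝ) :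
    ∑ a ∈ D, ∑ c ∈ D, pairEnergy D k g a c
      = (1 / 4) * ∑ S ∈ D.powersetCard k, ∑ a ∈ D, ∑ b ∈ D, (g S - g (sw a b S)) ^ 2 := by
  unfold pairEnergy
  have h : ∑ S ∈ D.powersetCard k, ∑ a ∈ D, ∑ b ∈ D, (g S - g (sw a b S)) ^ 2
      = ∑ a ∈ D, ∑ b ∈ D, ∑ S ∈ D.powersetCard k, (g S - g (sw a b S)) ^ 2 := by
    rw [Finset.sum_comm]
    apply Finset.sum_congr rfl
    intro a _
    rw [Finset.sum_comm]
  rw [h, Finset.mul_sum]
  apply Finset.sum_congr rfl
  intro a _
  rw [Finset.mul_sum]

/-- **The pair-moment inequality on the Johnson slice.**  For a mean-zero `g` on the `k`-subsets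
of `D`, with `m = |D|`:
`m * ∑_{a ≠ b} (∑_{S separating a,b} g S)² / #(separating sets) ≤ (m - 2) * ⟨g, L g⟩`,
where the left sum runs over ordered pairs and `⟨g, L g⟩` (the sum of `(g S - g S')²` over the
edges of the Johnson graph) is written as `(1/4) * ∑_S ∑_a ∑_b (g S - g (sw a b S))²`. -/
theorem johnson_pair_sum (D : Finset V) (k : ℕ) (g : Finset V → ℝ)
    (h0 : ∑ S ∈ D.powersetCard k, g S = 0) :
    (D.card : ℝ) * ∑ a ∈ D, ∑ b ∈ D,
        (if a = b then 0 else (∑ S ∈ sep D k a b, g S) ^ 2 / ((sep D k a b).card : ℝ))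
      ≤ ((D.card : ℝ) - 2)
          * ((1 / 4) * ∑ S ∈ D.powersetCard k, ∑ a ∈ D, ∑ b ∈ D, (g S - g (sw a b S)) ^ 2) := by
  rw [← sum_pairEnergy]
  by_cases hcard : D.card ≤ 1
  · -- at most one point: both sides vanish
    have heq : ∀ a ∈ D, ∀ b ∈ D, a = b := Finset.card_le_one.mp hcard
    have hL : ∑ a ∈ D, ∑ b ∈ D,
        (if a = b then 0 else (∑ S ∈ sep D k a b, g S) ^ 2 / ((sep D k a b).card : ℝ)) = 0 := by
      apply Finset.sum_eq_zero
      intro a ha
      apply Finset.sum_eq_zero
      intro b hb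
      rw [if_pos (heq a ha b hb)]
    have hR : ∑ a ∈ D, ∑ c ∈ D, pairEnergy D k g a c = 0 := by
      apply Finset.sum_eq_zero
      intro a ha
      apply Finset.sum_eq_zero
      intro b hb
      rw [heq a ha b hb, pairEnergy_self]
    rw [hL, hR]
    simp
  · push Not at hcard
    obtain ⟨a₀, ha₀, b₀, hb₀, hab₀⟩ := Finset.one_lt_card.mp hcard
    have hm2 : (2 : ℝ) ≤ (D.card : ℝ) := by exact_mod_cast hcard
    set ξ : ℝ := ((sep D k a₀ b₀).card : ℝ) with hξ
    have hξ0 : 0 ≤ ξ := by
      rw [hξ]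
      exact Nat.cast_nonneg _
    have hcardξ : ∀ a ∈ D, ∀ b ∈ D, a ≠ b → ((sep D k a b).card : ℝ) = ξ := by
      intro a ha b hb hab
      rw [hξ, sep_card_eq D k ha hb hab ha₀ hb₀ hab₀]
    have hE0 : 0 ≤ ∑ a ∈ D, ∑ c ∈ D, pairEnergy D k g a c :=
      Finset.sum_nonneg (fun a _ => Finset.sum_nonneg (fun c _ => pairEnergy_nonneg D k g a c))
    -- triangular Poincaré
    have H1 := triangular_poincare D (fun a b => ysum D k g a b) (fun a b => ysum_comm D k g a b)
      (fun a => ysum_self D k g a) (sum_ysum D k g h0)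
    -- Cauchy–Schwarz on every term
    have H2 : ∑ b ∈ D, ∑ a ∈ D, ∑ c ∈ D,
          (if a = b ∨ c = b then 0 else (ysum D k g a b - ysum D k g c b) ^ 2)
        ≤ ∑ b ∈ D, ∑ a ∈ D, ∑ c ∈ D,
          (if a = b ∨ c = b then 0 else ξ * pairEnergy D k g a c) := by
      apply Finset.sum_le_sum
      intro b _
      apply Finset.sum_le_sum
      intro a ha
      apply Finset.sum_le_sum
      intro c hc
      by_cases h : a = b ∨ c = b
      · rw [if_pos h, if_pos h]
      · rw [if_neg h, if_neg h]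
        push Not at h
        by_cases hac : a = c
        · subst hac
          rw [sub_self]
          have := mul_nonneg hξ0 (pairEnergy_nonneg D k g a a)
          nlinarith
        · have h' := ysum_sub_sq_le D k g ha hc (Ne.symm h.1) (Ne.symm h.2)
          rw [hcardξ a ha c hc hac] at h'
          exact h'
    -- counting the third point
    have H3 : ∑ b ∈ D, ∑ a ∈ D, ∑ c ∈ D,
          (if a = b ∨ c = b then 0 else ξ * pairEnergy D k g a c)
        = ((D.card : ℝ) - 2) * (ξ * ∑ a ∈ D, ∑ c ∈ D, pairEnergy D k g a c) := by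
      have e1 : ∑ b ∈ D, ∑ a ∈ D, ∑ c ∈ D,
            (if a = b ∨ c = b then 0 else ξ * pairEnergy D k g a c)
          = ∑ a ∈ D, ∑ c ∈ D, ∑ b ∈ D,
            (if a = b ∨ c = b then 0 else ξ * pairEnergy D k g a c) := by
        rw [Finset.sum_comm]
        apply Finset.sum_congr rfl
        intro a _
        rw [Finset.sum_comm]
      rw [e1, Finset.mul_sum, Finset.mul_sum]
      apply Finset.sum_congr rfl
      intro a ha
      rw [Finset.mul_sum, Finset.mul_sum]
      apply Finset.sum_congr rfl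
      intro c hc
      by_cases hac : a = c
      · subst hac
        rw [pairEnergy_self]
        simp
      · have e2 : ∀ b ∈ D, (if a = b ∨ c = b then 0 else ξ * pairEnergy D k g a c)
            = ξ * pairEnergy D k g a c - (if a = b then ξ * pairEnergy D k g a c else 0)
              - (if c = b then ξ * pairEnergy D k g a c else 0) := by
          intro b _
          by_cases h1 : a = b
          · have h2 : c ≠ b := fun h => hac (h1.trans h.symm)
            simp [h1, h2]
          · by_cases h2 : c = b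
            · simp [h1, h2]
            · simp [h1, h2]
        rw [Finset.sum_congr rfl e2, Finset.sum_sub_distrib, Finset.sum_sub_distrib,
          Finset.sum_ite_eq D a, Finset.sum_ite_eq D c, if_pos ha, if_pos hc]
        simp only [Finset.sum_const, nsmul_eq_mul]
        ring
    have H4 : (D.card : ℝ) * ∑ a ∈ D, ∑ b ∈ D, ysum D k g a b ^ 2
        ≤ ((D.card : ℝ) - 2) * (ξ * ∑ a ∈ D, ∑ c ∈ D, pairEnergy D k g a c) := by
      rw [← H3]
      exact le_trans H1 H2
    -- rewrite the left-hand side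
    have hL : ∑ a ∈ D, ∑ b ∈ D,
        (if a = b then 0 else (∑ S ∈ sep D k a b, g S) ^ 2 / ((sep D k a b).card : ℝ))
        = (∑ a ∈ D, ∑ b ∈ D, ysum D k g a b ^ 2) / ξ := by
      rw [Finset.sum_div]
      apply Finset.sum_congr rfl
      intro a ha
      rw [Finset.sum_div]
      apply Finset.sum_congr rfl
      intro b hb
      by_cases hab : a = b
      · subst hab
        rw [if_pos rfl, ysum_self]
        simp
      · rw [if_neg hab, hcardξ a ha b hb hab]
        rfl
    rw [hL]
    rcases hξ0.lt_or_eq with hpos | hzero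
    · rw [← mul_div_assoc, div_le_iff₀ hpos]
      calc (D.card : ℝ) * ∑ a ∈ D, ∑ b ∈ D, ysum D k g a b ^ 2
          ≤ ((D.card : ℝ) - 2) * (ξ * ∑ a ∈ D, ∑ c ∈ D, pairEnergy D k g a c) := H4
        _ = ((D.card : ℝ) - 2) * (∑ a ∈ D, ∑ c ∈ D, pairEnergy D k g a c) * ξ := by ring
    · rw [← hzero, div_zero, mul_zero]
      exact mul_nonneg (by linarith) hE0

end Vale.Agent.Lib.P335.H59
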